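import Vale.Agent.P134.H143.Zt
import Vale.Agent.P134.H147.RayMain
import Vale.Agent.P134.H283.Har3
import Vale.Agent.P134.H873.LI6
import Vale.Agent.P134.LI.Stm2

/-! P134, R3: the pointwise lemma `StPW` on one ray (glue of LI6, the ray bounds and Harnack). -/

set_option linter.all false

namespace Vale.Agent.P134.H143

open Vale.Agent.P134 Vale.Agent.P134.SM Vale.Agent.P134.LI MeasureTheory Filter Topology

variable {u : R3 → ℝ} {x : R3} {ε κ s3 : ℝ}

lemma exp_dep (hε : 0 < ε) (hκ : 0 < κ) (hq : 0 ≤ qq u x) :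
    Real.exp (-(2 * Real.sqrt 2 * dep ε κ u x)) = ε * (qq u x + κ ^ 2) := by
  have h0 : 0 < ε * (qq u x + κ ^ 2) := by positivity
  unfold dep
  have h1 : 2 * Real.sqrt 2 ≠ 0 := by positivity
  rw [mul_div_cancel₀ _ h1, Real.log_div one_ne_zero h0.ne', Real.log_one, zero_sub, neg_neg,
    Real.exp_log h0]

lemma le_dep (hε : 0 < ε) (hκ : 0 < κ) (hq : 0 ≤ qq u x) {A : ℝ}
    (h : ε * (qq u x + κ ^ 2) ≤ Real.exp (-(2 * Real.sqrt 2 * A))) : A ≤ dep ε κ u x := by
  rw [← exp_dep hε hκ hq, Real.exp_le_exp] at h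
  have h1 : 0 < 2 * Real.sqrt 2 := by positivity
  nlinarith

lemma dep_le (hε : 0 < ε) (hκ : 0 < κ) (hq : 0 < qq u x) (h1 : 0 ≤ dep ε κ u x) :
    dep ε κ u x ^ 2 ≤ 4 * Real.sqrt (1 / (ε * qq u x)) := by
  set y := 1 / (ε * qq u x) with hy
  have hy0 : 0 < y := by positivity
  have h2 : dep ε κ u x ≤ Real.log y / 2 := by
    unfold dep
    have h3 : Real.log (1 / (ε * (qq u x + κ ^ 2))) ≤ Real.log y := by
      apply Real.log_le_log (by positivity)
      apply one_div_le_one_div_of_le (by positivity)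
      nlinarith [sq_nonneg κ]
    have h4 : 0 ≤ Real.log (1 / (ε * (qq u x + κ ^ 2))) := by
      unfold dep at h1
      have : 0 < 2 * Real.sqrt 2 := by positivity
      by_contra hc
      have := div_neg_of_neg_of_pos (not_le.mp hc) this
      linarith
    have h5 : 2 ≤ 2 * Real.sqrt 2 := by
      have : 1 ≤ Real.sqrt 2 := by rw [Real.one_le_sqrt]; norm_num
      linarith
    calc Real.log (1 / (ε * (qq u x + κ ^ 2))) / (2 * Real.sqrt 2)
        ≤ Real.log (1 / (ε * (qq u x + κ ^ 2))) / 2 :=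
          div_le_div_of_nonneg_left h4 (by norm_num) h5
      _ ≤ Real.log y / 2 := by linarith
  have h3 : Real.log y ≤ 4 * Real.sqrt (Real.sqrt y) := by
    have e : Real.log y = 4 * Real.log (Real.sqrt (Real.sqrt y)) := by
      rw [Real.log_sqrt (Real.sqrt_nonneg y), Real.log_sqrt hy0.le]; ring
    rw [e]
    have := Real.log_le_sub_one_of_pos (Real.sqrt_pos.mpr (Real.sqrt_pos.mpr hy0))
    linarith
  have h4 : dep ε κ u x ≤ 2 * Real.sqrt (Real.sqrt y) := by linarith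
  calc dep ε κ u x ^ 2 ≤ (2 * Real.sqrt (Real.sqrt y)) ^ 2 := by gcongr
    _ = 4 * Real.sqrt y := by
      rw [mul_pow, Real.sq_sqrt (Real.sqrt_nonneg y)]; norm_num

/-- `q (2 + τ)²` is small. -/
lemma q_dep_small (hε : 0 < ε) (hκ : 0 < κ) (hq : 0 ≤ qq u x) (h1 : 0 ≤ dep ε κ u x) {δ : ℝ}
    (hδ : 0 < δ) (h2 : qq u x ≤ δ / 16) (h3 : qq u x ≤ ε * (δ / 16) ^ 2) :
    qq u x * (1 + (dep ε κ u x + 1)) ^ 2 ≤ δ := by
  rcases hq.eq_or_lt with h | h
  · rw [← h]; simp [hδ.le]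
  · have h4 := dep_le (κ := κ) hε hκ h h1
    have h5 : qq u x * Real.sqrt (1 / (ε * qq u x)) = Real.sqrt (qq u x / ε) := by
      have e1 : qq u x / ε = qq u x ^ 2 * (1 / (ε * qq u x)) := by field_simp
      rw [e1, Real.sqrt_mul (sq_nonneg _), Real.sqrt_sq hq]
    have h6 : Real.sqrt (qq u x / ε) ≤ δ / 16 := by
      rw [Real.sqrt_le_left (by positivity)]
      rw [div_le_iff₀ hε]; linarith
    have h7 : (1 + (dep ε κ u x + 1)) ^ 2 ≤ 8 + 2 * dep ε κ u x ^ 2 := by nlinarith [sq_nonneg (dep ε κ u x - 2)]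
    calc qq u x * (1 + (dep ε κ u x + 1)) ^ 2 ≤ qq u x * (8 + 2 * (4 * Real.sqrt (1 / (ε * qq u x)))) := by
          gcongr; linarith
      _ = 8 * qq u x + 8 * (qq u x * Real.sqrt (1 / (ε * qq u x))) := by ring
      _ ≤ 8 * (δ / 16) + 8 * (δ / 16) := by rw [h5]; linarith
      _ = δ := by ring

/-- scalar bookkeeping of the error terms -/
lemma err_le {C2 Λ ε q k E E2 : ℝ} (hC2 : 0 < C2) (hΛ : 0 ≤ Λ) (hε : 0 < ε) (hq : 0 ≤ q)
    (hk : 0 ≤ k) (hqε : q ≤ ε) (hE : E ^ 2 = ε * (q + k)) (hE2 : E2 = ε * (q + k)) :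
    2 * (C2 * (Λ + E + ε) * q + C2 * E2) ≤ 6 * C2 * (Λ + ε) * (q + k) := by
  have h1 : E * q ≤ ε * (q + k) := by
    nlinarith [sq_nonneg (E - q), mul_nonneg hq (sub_nonneg.mpr hqε), mul_nonneg hε.le hk]
  have h2 : Λ * q ≤ Λ * (q + k) := by nlinarith [mul_nonneg hΛ hk]
  have h3 : ε * q ≤ ε * (q + k) := by nlinarith [mul_nonneg hε.le hk]
  have h4 : 0 ≤ ε * (q + k) := by positivity
  have h5 : 0 ≤ Λ * (q + k) := by positivity
  have : C2 * (Λ + E + ε) * q + C2 * E2 ≤ 3 * C2 * (Λ + ε) * (q + k) := by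
    rw [hE2]
    have e : C2 * (Λ + E + ε) * q + C2 * (ε * (q + k)) =
      C2 * (Λ * q + E * q + ε * q + ε * (q + k)) := by ring
    have e2 : 3 * C2 * (Λ + ε) * (q + k) = C2 * (3 * (Λ * (q + k)) + 3 * (ε * (q + k))) := by ring
    rw [e, e2]
    apply mul_le_mul_of_nonneg_left _ hC2.le
    linarith
  linarith

lemma abs_dir_le (u : R3 → ℝ) (x : R3) {v : Fin 3 → ℝ} {Λ : ℝ} (hΛ : 0 ≤ Λ)
    (hv : ∀ i, |v i| ≤ Λ) : |∑ i, v i * nn u x i| ≤ 2 * Λ := by
  have h1 := Finset.sum_mul_sq_le_sq_mul_sq Finset.univ v (fun i => nn u x i)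
  have h2 := H147.nn_sq_le u x
  have h3 : ∑ i, v i ^ 2 ≤ 3 * Λ ^ 2 := by
    rw [Fin.sum_univ_three]
    have h4 : ∀ i, v i ^ 2 ≤ Λ ^ 2 := fun i => by
      rw [← sq_abs (v i)]; exact pow_le_pow_left₀ (abs_nonneg _) (hv i) 2
    linarith [h4 0, h4 1, h4 2]
  have h5 : 0 ≤ ∑ i, v i ^ 2 := Finset.sum_nonneg fun _ _ => sq_nonneg _
  apply abs_le_of_sq_le_sq _ (by positivity)
  nlinarith [sq_nonneg Λ]

/-- **PW** -/
theorem pw : StPW := by
  intro s3 hs3
  obtain ⟨c0, C0, hc0, hC0, hray⟩ := H147.ray s3 hs3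
  obtain ⟨c1, hc1, hlow⟩ := H147.ray_low s3 hs3
  obtain ⟨CH, hCH, hhar⟩ := H283.har1
  obtain ⟨Cz, hCz, hz⟩ := exists_deriv_st_bound
  obtain ⟨c2, hc2, C2, hC2, hli⟩ := H873.Ray.li6 s3 c1 (C0 + CH) Cz hs3.le hc1
    (by positivity) hCz.le
  have hr2 : 0 < Real.sqrt 2 := by positivity
  set ε0 : ℝ := min 1 (Real.exp (-(2 * Real.sqrt 2 * (2 * s3 + 2))) / 2) with hε0
  have hε00 : 0 < ε0 := by positivity
  have hε01 : ε0 ≤ 1 := min_le_left _ _
  have hε02 : 2 * ε0 ≤ Real.exp (-(2 * Real.sqrt 2 * (2 * s3 + 2))) := by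
    have := min_le_right 1 (Real.exp (-(2 * Real.sqrt 2 * (2 * s3 + 2))) / 2)
    rw [← hε0] at this; linarith
  refine ⟨c2, 6 * C2, ε0, hc2, by positivity, hε00, ?_⟩
  intro ε hε hεε0
  obtain ⟨δ, hδ, hli⟩ := hli ε hε
  refine ⟨min (min (1 / 2) ε) (min (δ / 16) (ε * (δ / 16) ^ 2)), by positivity, ?_⟩
  intro κ Λ hκ hκε0 hΛ hΛ1 u hu hlt χ hχ1 hχb hχΛ x hx hqx
  have hqx1 : qq u x ≤ 1 / 2 := hqx.trans ((min_le_left _ _).trans (min_le_left _ _))
  have hqx2 : qq u x ≤ ε := hqx.trans ((min_le_left _ _).trans (min_le_right _ _))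
  have hqx3 : qq u x ≤ δ / 16 := hqx.trans ((min_le_right _ _).trans (min_le_left _ _))
  have hqx4 : qq u x ≤ ε * (δ / 16) ^ 2 :=
    hqx.trans ((min_le_right _ _).trans (min_le_right _ _))
  have hq0 := H147.qq_nonneg hu hlt x
  set τ := dep ε κ u x with hτ
  have hκ1 : κ ^ 2 ≤ 1 := by nlinarith
  have hτge : 2 * s3 + 2 ≤ τ := by
    apply le_dep hε hκ hq0
    refine le_trans ?_ hε02
    have : ε * (qq u x + κ ^ 2) ≤ ε0 * 2 := by
      apply mul_le_mul hεε0 (by linarith) (by positivity) hε00.le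
    linarith
  have hτ0 : 0 < τ := by linarith
  obtain ⟨r1, r2, r3, r4, r5, r6, r7, r8, r9⟩ := hray u hu hlt x hx
  obtain ⟨b1, b2, b3, b4⟩ := hhar u hu hlt x hqx1
  have hχd : Differentiable ℝ χ := hχ1.differentiable (by norm_num)
  -- the data of the ray
  have hRay : H873.Ray s3 c1 (C0 + CH) Cz (phi u x) (hh u x) (kk u x) (qq u x) Λ τ (τ + 1)
      (fun t => phi u (xt u x t)) (fun t => χ (xt u x t) / 2)
      (fun t => (∑ i, pd i χ (xt u x t) * nn u x i) / 2) (zt τ) (deriv (zt τ)) := by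
    refine H873.Ray.of_deriv (p := H147.pn u x) hx hq0 ?_ ?_ (by rw [H147.xt_zero]) r1 r2 ?_ ?_
      hc1.le ?_ ?_ ?_ ?_ ?_ hΛ1 ?_ ?_ ?_ ?_ ?_ ?_ ?_ hτge (by linarith)
    · exact b1.trans (by gcongr; linarith)
    · exact b3.trans (by gcongr; linarith)
    · intro t
      refine (r5 t).trans ?_
      have : C0 * (1 + |t|) ^ 2 * Real.exp (2 * Real.sqrt 2 * |t|) * qq u x =
        C0 * qq u x * (1 + |t|) ^ 2 * Real.exp (2 * Real.sqrt 2 * |t|) := by ring
      rw [this]
      gcongr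
      linarith
    · intro t ht
      exact hlow u hu hlt x hx t (by linarith)
    · intro t
      exact (H147.hasDerivAt_xt hχd x t).div_const 2
    · have h1 : Continuous fun t => xt u x t := by
        simp_rw [H147.xt_eq]; fun_prop
      have h2 : ∀ i, Continuous fun t => pd i χ (xt u x t) := fun i => by
        have : Continuous (pd i χ) := by
          unfold pd
          exact (hχ1.continuous_fderiv (by norm_num)).clm_apply continuous_const
        exact this.comp h1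
      fun_prop
    · intro t
      have := (hχb (xt u x t)).1
      positivity
    · intro t
      have := (hχb (xt u x t)).2
      show χ (xt u x t) / 2 ≤ 1
      linarith
    · intro t
      have h1 := abs_dir_le u x hΛ (v := fun i => pd i χ (xt u x t)) (fun i => hχΛ _ i)
      show |(∑ i, pd i χ (xt u x t) * nn u x i) / 2| ≤ Λ
      rw [abs_div, abs_of_pos (by norm_num : (0 : ℝ) < 2)]
      linarith
    · intro t
      exact ((zt_contDiff hτ0).differentiable (by norm_num) t).hasDerivAt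
    · exact (zt_contDiff hτ0).continuous_deriv le_rfl
    · exact fun t => zt_nonneg _ _
    · exact fun t => zt_le_one _ _
    · exact fun t ht => zt_one ht
    · exact fun t ht => zt_zero ht
    · exact fun t => abs_deriv_zt_le hCz hz hτ0 t
  obtain ⟨hint, hmain⟩ := hli _ _ _ _ _ _ _ 0 _ _ _ _ _ hRay le_rfl
    (q_dep_small hε hκ hq0 hτ0.le hδ hqx3 hqx4)
  -- the left side
  have hzd : ∀ t, HasDerivAt (fun s => prf ε κ u x s)
      (H873.g2 (phi u x + t) * zt τ t + H873.g1 (phi u x + t) * deriv (zt τ) t) t := by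
    intro t
    have h1 : HasDerivAt (fun s => H873.g1 (phi u x + s)) (H873.g2 (phi u x + t)) t := by
      have := (H873.hasDerivAt_g1 (phi u x + t)).comp t ((hasDerivAt_id t).const_add (phi u x))
      exact this.congr_deriv (by simp)
    have h2 : HasDerivAt (zt τ) (deriv (zt τ) t) t :=
      ((zt_contDiff hτ0).differentiable (by norm_num) t).hasDerivAt
    exact h1.mul h2
  have hd1 : ∀ t, deriv (prf ε κ u x) t =
      H873.g2 (phi u x + t) * zt τ t + H873.g1 (phi u x + t) * deriv (zt τ) t :=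
    fun t => (hzd t).deriv
  have hd2 : ∀ t, deriv (fun s => prf ε κ u x s ^ 2) t =
      2 * (H873.g1 (phi u x + t) * zt τ t) * (H873.g2 (phi u x + t) * zt τ t
        + H873.g1 (phi u x + t) * deriv (zt τ) t) := by
    intro t
    have h1 : HasDerivAt (fun s => prf ε κ u x s ^ 2) _ t := (hzd t).pow 2
    rw [h1.deriv]
    have : prf ε κ u x t = H873.g1 (phi u x + t) * zt τ t := rfl
    rw [this]; push_cast; ring
  -- integrability of the two pieces
  have hcχ : Continuous fun t => χ (xt u x t) := by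
    simp_rw [H147.xt_eq]
    exact hχ1.continuous.comp (by fun_prop)
  have hcφ : Continuous fun t => phi u (xt u x t) :=
    continuous_iff_continuousAt.mpr fun t => (r1 t).continuousAt
  have hz1 : Continuous (zt τ) := hRay.z_cont
  have hz2 : Continuous (deriv (zt τ)) := hRay.z'_cont
  have hg1 : Continuous fun t => H873.g1 (phi u x + t) :=
    H873.continuous_g1.comp (continuous_const.add continuous_id)
  have hg2 : Continuous fun t => H873.g2 (phi u x + t) :=
    H873.continuous_g2.comp (continuous_const.add continuous_id)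
  have hgφ : Continuous fun t => H873.g (phi u (xt u x t)) := H873.continuous_g.comp hcφ
  have hJ : Continuous fun t => H873.J (hh u x) (kk u x) t := H873.Ray.continuous_J
  have hc' : Continuous fun t => (∑ i, pd i χ (xt u x t) * nn u x i) / 2 := hRay.c'_cont
  have hI1 : Integrable fun t => χ (xt u x t) * (H873.J (hh u x) (kk u x) t *
      ((H873.g2 (phi u x + t) * zt τ t + H873.g1 (phi u x + t) * deriv (zt τ) t) ^ 2 +
        (3 * H873.g (phi u (xt u x t)) ^ 2 - 1) * (H873.g1 (phi u x + t) * zt τ t) ^ 2)) := by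
    refine H873.Ray.integrable_of_zero (hcχ.mul (hJ.mul ((((hg2.mul hz1).add
      (hg1.mul hz2)).pow 2).add (((continuous_const.mul (hgφ.pow 2)).sub continuous_const).mul
      ((hg1.mul hz1).pow 2))))) (τ + 1) fun t ht => ?_
    rw [hRay.z_zero t ht.le, hRay.z'_zero_out ht]; ring
  have hI2 : Integrable fun t => H873.J (hh u x) (kk u x) t *
      (2 * (H873.g1 (phi u x + t) * zt τ t) * (H873.g2 (phi u x + t) * zt τ t
        + H873.g1 (phi u x + t) * deriv (zt τ) t)) *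
      ((∑ i, pd i χ (xt u x t) * nn u x i) / 2) := by
    refine H873.Ray.integrable_of_zero (by fun_prop) (τ + 1) fun t ht => ?_
    rw [hRay.z_zero t ht.le, hRay.z'_zero_out ht]; ring
  have hL1 : ∀ t, χ (xt u x t) * (jj u x t * (deriv (prf ε κ u x) t ^ 2
      + VV u (xt u x t) * prf ε κ u x t ^ 2)) = χ (xt u x t) * (H873.J (hh u x) (kk u x) t *
      ((H873.g2 (phi u x + t) * zt τ t + H873.g1 (phi u x + t) * deriv (zt τ) t) ^ 2 +
        (3 * H873.g (phi u (xt u x t)) ^ 2 - 1) * (H873.g1 (phi u x + t) * zt τ t) ^ 2)) := by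
    intro t
    rw [hd1 t]
    have e1 : H873.g (phi u (xt u x t)) = u (xt u x t) := H147.g0_phi hlt _
    have e2 : prf ε κ u x t = H873.g1 (phi u x + t) * zt τ t := rfl
    have e3 : jj u x t = H873.J (hh u x) (kk u x) t := rfl
    rw [e1, e2, e3]
    rfl
  have hL2 : ∀ t, jj u x t * deriv (fun s => prf ε κ u x s ^ 2) t *
        ∑ i, nn u x i * pd i χ (xt u x t) = 2 * (H873.J (hh u x) (kk u x) t *
      (2 * (H873.g1 (phi u x + t) * zt τ t) * (H873.g2 (phi u x + t) * zt τ t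
        + H873.g1 (phi u x + t) * deriv (zt τ) t)) *
      ((∑ i, pd i χ (xt u x t) * nn u x i) / 2)) := by
    intro t
    rw [hd2 t]
    have e3 : jj u x t = H873.J (hh u x) (kk u x) t := rfl
    have e4 : ∑ i, nn u x i * pd i χ (xt u x t) = ∑ i, pd i χ (xt u x t) * nn u x i :=
      Finset.sum_congr rfl fun i _ => mul_comm _ _
    rw [e3, e4]; ring
  have hsum : (∫ t, χ (xt u x t) * (jj u x t * (deriv (prf ε κ u x) t ^ 2
      + VV u (xt u x t) * prf ε κ u x t ^ 2)))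
    + (1 / 2) * (∫ t, jj u x t * deriv (fun s => prf ε κ u x s ^ 2) t *
        ∑ i, nn u x i * pd i χ (xt u x t)) =
      2 * ∫ t, H873.Ray.lhs (phi u x) (hh u x) (kk u x) 0 (fun t => phi u (xt u x t))
        (fun t => χ (xt u x t) / 2)
        (fun t => (∑ i, pd i χ (xt u x t) * nn u x i) / 2) (zt τ) (deriv (zt τ)) t := by
    simp_rw [hL1, hL2]
    rw [integral_const_mul, ← mul_assoc, ← integral_const_mul 2]
    have e : (1 / 2 : ℝ) * 2 = 1 := by norm_num
    rw [e, one_mul, ← integral_add hI1 hI2]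
    congr 1
    ext t
    simp only [H873.Ray.lhs]
    ring
  rw [hsum]
  rw [H147.xt_zero] at hmain
  have hE : Real.exp (-(Real.sqrt 2 * τ)) ^ 2 = ε * (qq u x + κ ^ 2) := by
    rw [← exp_dep hε hκ hq0, ← Real.exp_nat_mul]
    congr 1
    push_cast; ring
  have herr := err_le (C2 := C2) (Λ := Λ) (ε := ε) (q := qq u x) (k := κ ^ 2)
    (E := Real.exp (-(Real.sqrt 2 * τ))) (E2 := Real.exp (-(2 * Real.sqrt 2 * τ)))
    hC2 hΛ hε hq0 (sq_nonneg κ) hqx2 hE (exp_dep hε hκ hq0)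
  have hs : sig0 = 2 * Real.sqrt 2 / 3 := rfl
  rw [hs]
  linarith

end Vale.Agent.P134.H143
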