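import Vale.Agent.P134.LI.Defs

/-! P134, R3: the cut-off `zt` in the ray parameter is `C¹` with bounded derivative. -/

set_option linter.all false

namespace Vale.Agent.P134.H143

open Vale.Agent.P134 Vale.Agent.P134.SM Vale.Agent.P134.LI MeasureTheory Filter Topology

/-- the derivative of the smooth transition is bounded -/
lemma exists_deriv_st_bound : ∃ C : ℝ, 0 < C ∧ ∀ s, |deriv Real.smoothTransition s| ≤ C := by
  have hc : ContDiff ℝ 1 Real.smoothTransition := Real.smoothTransition.contDiff
  have hcont : Continuous (deriv Real.smoothTransition) := hc.continuous_deriv le_rfl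
  obtain ⟨C, hC⟩ := (isCompact_Icc (a := (0 : ℝ)) (b := 1)).exists_bound_of_continuousOn
    hcont.continuousOn
  refine ⟨max C 1, by positivity, fun s => ?_⟩
  rcases lt_or_ge s 0 with h | h
  · have h1 : Real.smoothTransition =ᶠ[𝓝 s] fun _ => (0 : ℝ) := by
      filter_upwards [isOpen_Iio.mem_nhds h] with r hr
      exact Real.smoothTransition.zero_of_nonpos (le_of_lt hr)
    rw [h1.deriv_eq]; simp
  · rcases lt_or_ge 1 s with h' | h'
    · have h1 : Real.smoothTransition =ᶠ[𝓝 s] fun _ => (1 : ℝ) := by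
        filter_upwards [isOpen_Ioi.mem_nhds h'] with r hr
        exact Real.smoothTransition.one_of_one_le (le_of_lt hr)
      rw [h1.deriv_eq]; simp
    · exact (hC s ⟨h, h'⟩).trans (le_max_left _ _)

variable {τ : ℝ}

lemma zt_nonneg (τ t : ℝ) : 0 ≤ zt τ t := Real.smoothTransition.nonneg _
lemma zt_le_one (τ t : ℝ) : zt τ t ≤ 1 := Real.smoothTransition.le_one _
lemma zt_one {t : ℝ} (h : |t| ≤ τ) : zt τ t = 1 :=
  Real.smoothTransition.one_of_one_le (by linarith)
lemma zt_zero {t : ℝ} (h : τ + 1 ≤ |t|) : zt τ t = 0 :=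
  Real.smoothTransition.zero_of_nonpos (by linarith)

lemma zt_contDiff (hτ : 0 < τ) : ContDiff ℝ 1 (zt τ) := by
  rw [contDiff_iff_contDiffAt]
  intro t
  rcases lt_trichotomy t 0 with h | h | h
  · have h1 : zt τ =ᶠ[𝓝 t] fun s => Real.smoothTransition (τ + 1 + s) := by
      filter_upwards [isOpen_Iio.mem_nhds h] with r hr
      have : |r| = -r := abs_of_neg hr
      unfold zt; rw [this]; congr 1; ring
    refine ContDiffAt.congr_of_eventuallyEq ?_ h1
    exact (Real.smoothTransition.contDiff.comp (contDiff_const.add contDiff_id)).contDiffAt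
  · have h1 : zt τ =ᶠ[𝓝 t] fun _ => (1 : ℝ) := by
      have : {s : ℝ | |s| < τ} ∈ 𝓝 t :=
        (isOpen_lt continuous_abs continuous_const).mem_nhds (by simp [h, hτ])
      filter_upwards [this] with s hs using zt_one (le_of_lt hs)
    exact contDiffAt_const.congr_of_eventuallyEq h1
  · have h1 : zt τ =ᶠ[𝓝 t] fun s => Real.smoothTransition (τ + 1 - s) := by
      filter_upwards [isOpen_Ioi.mem_nhds h] with r hr
      have : |r| = r := abs_of_pos hr
      unfold zt; rw [this]
    refine ContDiffAt.congr_of_eventuallyEq ?_ h1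
    exact (Real.smoothTransition.contDiff.comp (contDiff_const.sub contDiff_id)).contDiffAt

lemma abs_deriv_zt_le {C : ℝ} (hC : 0 < C) (hb : ∀ s, |deriv Real.smoothTransition s| ≤ C)
    (hτ : 0 < τ) (t : ℝ) : |deriv (zt τ) t| ≤ C := by
  have hd : ∀ s, DifferentiableAt ℝ Real.smoothTransition s := fun s =>
    (Real.smoothTransition.contDiff (n := 1)).differentiable (by norm_num) s
  rcases lt_trichotomy t 0 with h | h | h
  · have h1 : zt τ =ᶠ[𝓝 t] fun s => Real.smoothTransition (τ + 1 + s) := by
      filter_upwards [isOpen_Iio.mem_nhds h] with r hr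
      have : |r| = -r := abs_of_neg hr
      unfold zt; rw [this]; congr 1; ring
    rw [h1.deriv_eq]
    have h2 : HasDerivAt (fun s => Real.smoothTransition (τ + 1 + s))
        (deriv Real.smoothTransition (τ + 1 + t) * 1) t :=
      (hd (τ + 1 + t)).hasDerivAt.comp t ((hasDerivAt_id t).const_add (τ + 1))
    rw [h2.deriv, mul_one]
    exact hb _
  · have h1 : zt τ =ᶠ[𝓝 t] fun _ => (1 : ℝ) := by
      have : {s : ℝ | |s| < τ} ∈ 𝓝 t :=
        (isOpen_lt continuous_abs continuous_const).mem_nhds (by simp [h, hτ])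
      filter_upwards [this] with s hs using zt_one (le_of_lt hs)
    rw [h1.deriv_eq]; simp [hC.le]
  · have h1 : zt τ =ᶠ[𝓝 t] fun s => Real.smoothTransition (τ + 1 - s) := by
      filter_upwards [isOpen_Ioi.mem_nhds h] with r hr
      have : |r| = r := abs_of_pos hr
      unfold zt; rw [this]
    rw [h1.deriv_eq]
    have h2 : HasDerivAt (fun s => Real.smoothTransition (τ + 1 - s))
        (deriv Real.smoothTransition (τ + 1 - t) * (-1)) t :=
      (hd (τ + 1 - t)).hasDerivAt.comp t ((hasDerivAt_id t).const_sub (τ + 1))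
    rw [h2.deriv, mul_neg_one, abs_neg]
    exact hb _

end Vale.Agent.P134.H143
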